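import Vale.Agent.P355.MatDefs

/-! Vocabulary of the joint statement `P355.AllParts`. -/

namespace Vale.Agent.P355.H951

open Vale.Agent.P355

/-- For every choice of three of the six rows, the sum over the columns of the product of the three
entries in these rows with the conjugates of the three entries in the other rows vanishes. -/
def TripleMomentsVanish (U : M6) : Prop :=
  ∀ e : Equiv.Perm (Fin 6),
    ∑ c, U (e 0) c * U (e 1) c * U (e 2) c * star (U (e 3) c * U (e 4) c * U (e 5) c) = 0

/-- The matrix of the squares of the entries of `U` has pairwise orthogonal rows. -/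
def SquareOrthogonal (U : M6) : Prop :=
  ∀ r s, r ≠ s → ∑ c, U r c ^ 2 * star (U s c ^ 2) = 0

/-- `U` maps every line spanned by a column of `A` to a line spanned by a column of `C`. -/
def MapsLines (U A C : M6) : Prop :=
  ∀ k, ∃ l, ∃ z : ℂ, ∀ r, (U * A) r k = z * C r l

/-- `U` and `V` carry every basis `B i` to one and the same basis `B (p i)`. -/
def SameAction {n : ℕ} (B : Fin n → M6) (U V : M6) : Prop :=
  ∃ p : Fin n → Fin n, ∀ i, MapsLines U (B i) (B (p i)) ∧ MapsLines V (B i) (B (p i))

end Vale.Agent.P355.H951
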